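import Vale.Agent.P141.PL.Defs

/-!
# P141, a neighbour difference as a chain of Haar gaps going up

For any array `f a n` (scale `a`, cell `n`), `dg f a n` is half the difference of the two
children (Haar coefficient of the cell `n` of scale `a + 1`) and `dr f a n` is the mean of the
children minus the parent (zero for exact averages). `chain_up` writes the difference of two
neighbouring cells of scale `k` as a sum over the scales above of gaps of the cells which have
the jump at an end or at the centre; no hypothesis on `f`.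
-/

namespace Vale.Agent.P141.H509

open Finset Vale.Agent.P141.PL

variable {E : Type*} [AddCommGroup E] [Module ℝ E]

/-- Haar coefficient of the cell `n` of scale `a + 1` -/
noncomputable def dg (f : ℕ → ℤ → E) (a : ℕ) (n : ℤ) : E :=
  (1 / 2 : ℝ) • (f a (2 * n) - f a (2 * n + 1))

/-- drift: mean of the two children minus the parent -/
noncomputable def dr (f : ℕ → ℤ → E) (a : ℕ) (n : ℤ) : E :=
  (1 / 2 : ℝ) • (f a (2 * n) + f a (2 * n + 1)) - f (a + 1) n

/-- sign of the position of a cell in its parent -/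
def sg (m : ℤ) : ℝ := if m % 2 = 0 then 1 else -1

theorem dr_zero {f : ℕ → ℤ → E} {a : ℕ} {n : ℤ}
    (h : f (a + 1) n = (1 / 2 : ℝ) • (f a (2 * n) + f a (2 * n + 1))) : dr f a n = 0 := by
  unfold dr; rw [h, sub_self]

/-- one step up -/
theorem step_up (f : ℕ → ℤ → E) (a : ℕ) (m : ℤ) :
    f a m = f (a + 1) (m / 2) + dr f a (m / 2) + sg m • dg f a (m / 2) := by
  unfold dr dg sg
  rcases Int.emod_two_eq_zero_or_one m with h | h
  · have h1 : 2 * (m / 2) = m := by omega
    rw [if_pos h, h1]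
    module
  · have h1 : 2 * (m / 2) + 1 = m := by omega
    rw [if_neg (by omega), h1]
    module

theorem div_div (m : ℤ) (i : ℕ) : m / 2 ^ i / 2 = m / 2 ^ (i + 1) := by
  rw [pow_succ, Int.ediv_ediv_of_nonneg (by positivity)]

/-- all steps up from scale `k` to scale `k + r` -/
theorem chain_one (f : ℕ → ℤ → E) (k : ℕ) (m : ℤ) (r : ℕ) :
    f k m = f (k + r) (m / 2 ^ r)
      + ∑ i ∈ range r, (dr f (k + i) (m / 2 ^ (i + 1))
        + sg (m / 2 ^ i) • dg f (k + i) (m / 2 ^ (i + 1))) := by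
  induction r with
  | zero => simp
  | succ r ih =>
    rw [Finset.sum_range_succ]
    rw [step_up f (k + r) (m / 2 ^ r), div_div] at ih
    conv_lhs => rw [ih]
    rw [← add_assoc k r 1]
    abel

/-- the term of scale `k + i` of the chain -/
noncomputable def cj (f : ℕ → ℤ → E) (k i : ℕ) (m : ℤ) : E :=
  if m % 2 ^ (i + 1) = 0 then
    dg f (k + i) (m / 2 ^ (i + 1)) + dg f (k + i) (m / 2 ^ (i + 1) - 1)
  else if m % 2 ^ (i + 1) = 2 ^ i then (-2 : ℝ) • dg f (k + i) (m / 2 ^ (i + 1)) else 0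

/-- the drift term of scale `k + i` of the chain -/
noncomputable def dj (f : ℕ → ℤ → E) (k i : ℕ) (m : ℤ) : E :=
  if m % 2 ^ (i + 1) = 0 then
    dr f (k + i) (m / 2 ^ (i + 1)) - dr f (k + i) (m / 2 ^ (i + 1) - 1) else 0

/-! ### Arithmetic of the jump `m - 1 | m` -/

theorem pow_pos2 (i : ℕ) : (0 : ℤ) < 2 ^ i := by positivity

/-- the jump is at an end of the cells of scale `i` -/
theorem div_end {i : ℕ} {m : ℤ} (h : m % 2 ^ i = 0) : (m - 1) / 2 ^ i = m / 2 ^ i - 1 := by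
  have hp := pow_pos2 i
  have h1 : 2 ^ i * (m / 2 ^ i) = m := by
    have := Int.mul_ediv_add_emod m (2 ^ i); linarith
  rw [Int.ediv_eq_iff_of_pos hp]
  constructor
  · nlinarith
  · nlinarith

/-- the jump is inside a cell of scale `i` -/
theorem div_in {i : ℕ} {m : ℤ} (h : m % 2 ^ i ≠ 0) : (m - 1) / 2 ^ i = m / 2 ^ i := by
  have hp := pow_pos2 i
  have h1 := Int.mul_ediv_add_emod m (2 ^ i)
  have h2 := Int.emod_nonneg m hp.ne'
  have h3 := Int.emod_lt_of_pos m hp
  rw [Int.ediv_eq_iff_of_pos hp]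
  have h4 : 0 < m % 2 ^ i := lt_of_le_of_ne h2 (Ne.symm h)
  constructor
  · nlinarith
  · nlinarith

theorem sg_even {m : ℤ} (h : m % 2 = 0) : sg m = 1 := if_pos h

theorem sg_odd {m : ℤ} (h : m % 2 = 1) : sg m = -1 := if_neg (by omega)

theorem mod_even {i : ℕ} {m : ℤ} (h : m % 2 ^ (i + 1) = 0) :
    m / 2 ^ i % 2 = 0 ∧ m % 2 ^ i = 0 := by
  obtain ⟨q, hq⟩ := Int.dvd_of_emod_eq_zero h
  have hp := pow_pos2 i
  have e : m = 2 ^ i * (2 * q) := by rw [hq, pow_succ]; ring
  rw [e, Int.mul_ediv_cancel_left _ hp.ne']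
  exact ⟨by omega, Int.mul_emod_right _ _⟩

theorem mod_mid {i : ℕ} {m : ℤ} (h : m % 2 ^ (i + 1) = 2 ^ i) :
    m / 2 ^ i % 2 = 1 ∧ m % 2 ^ i = 0 := by
  have hp := pow_pos2 i
  have h1 := Int.mul_ediv_add_emod m (2 ^ (i + 1))
  rw [h] at h1
  have e : m = 2 ^ i * (2 * (m / 2 ^ (i + 1)) + 1) := by
    nth_rw 1 [← h1]; rw [pow_succ]; ring
  rw [e, Int.mul_ediv_cancel_left _ hp.ne']
  exact ⟨by omega, Int.mul_emod_right _ _⟩

theorem mod_else {i : ℕ} {m : ℤ} (h : m % 2 ^ (i + 1) ≠ 0) (h' : m % 2 ^ (i + 1) ≠ 2 ^ i) :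
    m % 2 ^ i ≠ 0 := by
  intro h0
  have hp := pow_pos2 i
  obtain ⟨q, hq⟩ := Int.dvd_of_emod_eq_zero h0
  rcases Int.emod_two_eq_zero_or_one q with hh | hh
  · apply h
    have e : m = 2 ^ (i + 1) * (q / 2) := by
      have : q = 2 * (q / 2) := by omega
      rw [hq]; nth_rw 1 [this]; rw [pow_succ]; ring
    rw [e]; exact Int.mul_emod_right _ _
  · apply h'
    have e : m = 2 ^ i + 2 ^ (i + 1) * (q / 2) := by
      have : q = 2 * (q / 2) + 1 := by omega
      rw [hq]; nth_rw 1 [this]; rw [pow_succ]; ring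
    rw [e, Int.add_mul_emod_self_left]
    exact Int.emod_eq_of_lt hp.le (by rw [pow_succ]; linarith)

/-- the difference of one scale -/
theorem term_eq (f : ℕ → ℤ → E) (k i : ℕ) (m : ℤ) :
    (dr f (k + i) (m / 2 ^ (i + 1)) + sg (m / 2 ^ i) • dg f (k + i) (m / 2 ^ (i + 1)))
      - (dr f (k + i) ((m - 1) / 2 ^ (i + 1))
        + sg ((m - 1) / 2 ^ i) • dg f (k + i) ((m - 1) / 2 ^ (i + 1)))
      = cj f k i m + dj f k i m := by
  unfold cj dj
  by_cases h0 : m % 2 ^ (i + 1) = 0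
  · obtain ⟨h1, h2⟩ := mod_even h0
    rw [if_pos h0, if_pos h0, div_end h0, div_end h2, sg_even h1, sg_odd (by omega)]
    module
  · rw [if_neg h0, if_neg h0]
    by_cases h1 : m % 2 ^ (i + 1) = 2 ^ i
    · obtain ⟨h2, h3⟩ := mod_mid h1
      rw [if_pos h1, div_in h0, div_end h3, sg_odd h2, sg_even (by omega)]
      module
    · rw [if_neg h1, div_in h0, div_in (mod_else h0 h1)]
      abel

/-- **Chain up**: the difference of two neighbouring cells of scale `k` is the sum over the scales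
`k < k + i + 1 ≤ k + r` of the gaps of the cells which have the jump at an end or at the centre. -/
theorem chain_up (f : ℕ → ℤ → E) (k : ℕ) (m : ℤ) (r : ℕ) :
    f k m - f k (m - 1) = ∑ i ∈ range r, (cj f k i m + dj f k i m)
      + (f (k + r) (m / 2 ^ r) - f (k + r) ((m - 1) / 2 ^ r)) := by
  rw [chain_one f k m r, chain_one f k (m - 1) r, Finset.sum_congr rfl
    (fun i _ => (term_eq f k i m).symm), Finset.sum_sub_distrib]
  abel

/-- exact averages: no drift -/
theorem chain_up_avg {f : ℕ → ℤ → E} {k r : ℕ}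
    (hf : ∀ a, k ≤ a → a < k + r → ∀ n, f (a + 1) n
      = (1 / 2 : ℝ) • (f a (2 * n) + f a (2 * n + 1))) (m : ℤ) :
    f k m - f k (m - 1) = ∑ i ∈ range r, cj f k i m
      + (f (k + r) (m / 2 ^ r) - f (k + r) ((m - 1) / 2 ^ r)) := by
  rw [chain_up f k m r]
  congr 1
  refine Finset.sum_congr rfl fun i hi => ?_
  have hi' := Finset.mem_range.mp hi
  unfold dj
  rw [dr_zero (hf (k + i) (by omega) (by omega) _), dr_zero (hf (k + i) (by omega) (by omega) _)]
  simp

/-! ### The chain stops at the centre -/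

omit [Module ℝ E] in
/-- the jump is inside one cell of scale `k + r`: the rest vanishes -/
theorem rest_zero (f : ℕ → ℤ → E) (k : ℕ) {m : ℤ} {r : ℕ} (h : m % 2 ^ r ≠ 0) :
    f (k + r) (m / 2 ^ r) - f (k + r) ((m - 1) / 2 ^ r) = 0 := by
  rw [div_in h, sub_self]

/-! ### Counting: every cell has two end jumps and one centre -/

section count

variable {F : Type*} [AddCommMonoid F]

/-- the sum over the end jumps `m = 2 ^ i M`, `M` in a cell of scale `j` -/
theorem sum_ends (i j : ℕ) (S : ℤ) (g : ℤ → F) :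
    ∑ m ∈ iv (j + i) S, (if m % 2 ^ i = 0 then g m else 0) = ∑ M ∈ iv j S, g (2 ^ i * M) := by
  have hp := pow_pos2 i
  rw [← Finset.sum_filter]
  symm
  refine Finset.sum_bij' (fun M _ => 2 ^ i * M) (fun m _ => m / 2 ^ i) ?_ ?_ ?_ ?_ ?_
  · intro M hM
    rw [mem_iv, ix] at hM
    rw [Finset.mem_filter, mem_iv, ix, add_comm j i, pow_add,
      Int.mul_ediv_mul_of_pos _ _ hp, Int.mul_emod_right]
    exact ⟨hM, rfl⟩
  · intro m hm
    rw [Finset.mem_filter, mem_iv, ix] at hm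
    rw [mem_iv, ix, Int.ediv_ediv_of_nonneg hp.le, ← pow_add, add_comm i j]
    exact hm.1
  · intro M _
    exact Int.mul_ediv_cancel_left _ hp.ne'
  · intro m hm
    rw [Finset.mem_filter] at hm
    exact Int.mul_ediv_cancel_of_emod_eq_zero hm.2
  · intro M _; rfl

/-- the sum over the centres `m = 2 ^ (i + 1) M + 2 ^ i`, `M` in a cell of scale `j` -/
theorem sum_mids (i j : ℕ) (S : ℤ) (g : ℤ → F) :
    ∑ m ∈ iv (j + (i + 1)) S, (if m % 2 ^ (i + 1) = 2 ^ i then g m else 0)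
      = ∑ M ∈ iv j S, g (2 ^ (i + 1) * M + 2 ^ i) := by
  have hp := pow_pos2 i
  have hp1 := pow_pos2 (i + 1)
  have hlt : (2 : ℤ) ^ i < 2 ^ (i + 1) := by rw [pow_succ]; linarith
  have hd : ∀ M : ℤ, (2 ^ (i + 1) * M + 2 ^ i) / 2 ^ (i + 1) = M := fun M => by
    rw [Int.ediv_eq_iff_of_pos hp1]; constructor <;> nlinarith
  have hm : ∀ M : ℤ, (2 ^ (i + 1) * M + 2 ^ i) % 2 ^ (i + 1) = 2 ^ i := fun M => by
    rw [Int.emod_def, hd]; ring
  rw [← Finset.sum_filter]
  symm
  refine Finset.sum_bij' (fun M _ => 2 ^ (i + 1) * M + 2 ^ i) (fun m _ => m / 2 ^ (i + 1))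
    ?_ ?_ ?_ ?_ ?_
  · intro M hM
    rw [mem_iv, ix] at hM
    rw [Finset.mem_filter, mem_iv, ix, add_comm j (i + 1), pow_add 2 (i + 1) j,
      ← Int.ediv_ediv_of_nonneg hp1.le, hd, hm]
    exact ⟨hM, rfl⟩
  · intro m hm
    rw [Finset.mem_filter, mem_iv, ix] at hm
    rw [mem_iv, ix, Int.ediv_ediv_of_nonneg hp1.le, ← pow_add, add_comm (i + 1) j]
    exact hm.1
  · intro M _
    exact hd M
  · intro m hm
    rw [Finset.mem_filter] at hm
    have := Int.mul_ediv_add_emod m (2 ^ (i + 1))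
    rw [hm.2] at this
    exact this
  · intro M _; rfl

/-- a sum of a function of the terms of scale `k + i` of the chain: two ends and one centre for
every cell of scale `k + i + 1` -/
theorem sum_cj (f : ℕ → ℤ → E) (k i j : ℕ) (S : ℤ) (φ : ℤ → E → F) (h0 : ∀ m, φ m 0 = 0) :
    ∑ m ∈ iv (j + (i + 1)) S, φ m (cj f k i m)
      = ∑ M ∈ iv j S, φ (2 ^ (i + 1) * M) (dg f (k + i) M + dg f (k + i) (M - 1))
        + ∑ M ∈ iv j S, φ (2 ^ (i + 1) * M + 2 ^ i) ((-2 : ℝ) • dg f (k + i) M) := by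
  have hp := pow_pos2 i
  have hp1 := pow_pos2 (i + 1)
  have hlt : (2 : ℤ) ^ i < 2 ^ (i + 1) := by rw [pow_succ]; linarith
  have e1 : ∀ m, φ m (cj f k i m)
      = (if m % 2 ^ (i + 1) = 0 then φ m (cj f k i m) else 0)
        + (if m % 2 ^ (i + 1) = 2 ^ i then φ m (cj f k i m) else 0) := fun m => by
    by_cases h : m % 2 ^ (i + 1) = 0
    · rw [if_pos h, if_neg (by rw [h]; exact hp.ne), add_zero]
    · rw [if_neg h, zero_add]
      by_cases h1 : m % 2 ^ (i + 1) = 2 ^ i
      · rw [if_pos h1]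
      · rw [if_neg h1]
        unfold cj
        rw [if_neg h, if_neg h1, h0]
  rw [Finset.sum_congr rfl (fun m _ => e1 m), Finset.sum_add_distrib, sum_ends, sum_mids]
  congr 1
  · refine Finset.sum_congr rfl fun M _ => ?_
    congr 1
    unfold cj
    rw [if_pos (Int.mul_emod_right _ _), Int.mul_ediv_cancel_left _ hp1.ne']
  · refine Finset.sum_congr rfl fun M _ => ?_
    have hd : (2 ^ (i + 1) * M + 2 ^ i) / 2 ^ (i + 1) = M := by
      rw [Int.ediv_eq_iff_of_pos hp1]; constructor <;> nlinarith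
    have hm : (2 ^ (i + 1) * M + 2 ^ i) % 2 ^ (i + 1) = 2 ^ i := by
      rw [Int.emod_def, hd]; ring
    congr 1
    unfold cj
    rw [hm, if_neg hp.ne', if_pos rfl, hd]

end count

end Vale.Agent.P141.H509
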